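import Vale.Agent.P278.H837.Final

open scoped ContDiff Manifold
open Vale.Agent.P278.StmtF Vale.Agent.P278.H837

namespace Vale.Agent.Results.P278.DiagonalProducts

universe u

/-- Let `π : M → X` be the universal covering of a connected complex manifold `X`.
(1) (Beauville's conjecture.) If `X` is a compact Kähler manifold, every splitting of `T_X` all of whose
partial sums are integrable induces a compatible product decomposition of `M`.
(2) For every compatible product decomposition of `M`: the deck group acts diagonally, the decomposition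
is unique up to biholomorphisms of the factors, and the holomorphic self-maps of `M` which respect the
splitting are product maps.
(3) Conversely every product decomposition of `M` with a diagonal action of the deck group comes from
exactly one splitting of `T_X`.
(4) The fibres of `π` are the orbits of the deck group. -/
theorem result {E : Type*} [NormedAddCommGroup E] [NormedSpace ℂ E] [FiniteDimensional ℂ E]
    {X : Type*} [TopologicalSpace X] [ConnectedSpace X] [ChartedSpace E X] [IsManifold 𝓘(ℂ, E) ω X]
    {M : Type u} [TopologicalSpace M] [SimplyConnectedSpace M]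
    [ChartedSpace E M] [IsManifold 𝓘(ℂ, E) ω M]
    (π : M → X) (hπ : IsCoveringMap π) (hπl : IsLocalDiffeomorph 𝓘(ℂ, E) 𝓘(ℂ, E) ω π) (k : ℕ) :
    (CompactSpace X → T2Space X → ∀ h : Form E X, IsKahler h →
      ∀ F : Fin k → Dist E X, IsSplitting F → InducesProduct fun i => pull π (F i)) ∧
    (∀ (F : Fin k → Dist E X)
      (A : Fin k → Type) [∀ i, NormedAddCommGroup (A i)] [∀ i, NormedSpace ℂ (A i)]
      (Y : Fin k → Type u) [∀ i, TopologicalSpace (Y i)] [∀ i, ChartedSpace (A i) (Y i)]
      (Φ : M → ∀ i, Y i), IsProduct (fun i => pull π (F i)) A Y Φ →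
      DeckDiagonal π A Φ ∧ MapsAreProducts (fun i => pull π (F i)) A Φ ∧
      ∀ (A' : Fin k → Type) [∀ i, NormedAddCommGroup (A' i)] [∀ i, NormedSpace ℂ (A' i)]
        (Y' : Fin k → Type u) [∀ i, TopologicalSpace (Y' i)] [∀ i, ChartedSpace (A' i) (Y' i)]
        (Φ' : M → ∀ i, Y' i), IsProduct (fun i => pull π (F i)) A' Y' Φ' →
        SameUpToFactors A A' Φ Φ') ∧
    (∀ (A : Fin k → Type) [∀ i, NormedAddCommGroup (A i)] [∀ i, NormedSpace ℂ (A i)]
      (Y : Fin k → Type u) [∀ i, TopologicalSpace (Y i)] [∀ i, ChartedSpace (A i) (Y i)]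
      (Φ : M → ∀ i, Y i), (∀ i, IsSCManifold (A i) (Y i)) → IsBihol E A Φ → DeckDiagonal π A Φ →
      ∃! F : Fin k → Dist E X, IsSplitting F ∧ IsProduct (fun i => pull π (F i)) A Y Φ) ∧
    (∀ m m' : M, π m = π m' ↔ ∃ γ : Deck π, (γ : M ≃ₜ M) m = m') :=
  final π hπ hπl k

end Vale.Agent.Results.P278.DiagonalProducts
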