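import Vale.Agent.P278.H976.Final

open scoped ContDiff Manifold
open Vale.Agent.P278.StmtF Vale.Agent.P278.H837 Vale.Agent.P278.H976

namespace Vale.Agent.Results.P278.PairwiseAndMaps

universe u

/-- Let `π : M → X` and `π₁ : M₁ → X₁` be the universal coverings of connected complex manifolds.
(1) (Beauville's conjecture.) If `X` is compact Kähler and `T_X` is the direct sum of holomorphic
subbundles `F i` all of whose partial sums are integrable, then there is a product decomposition of `M`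
compatible with the `π^* F i`.
(2) If `X` is compact Kähler and `T_X` is the direct sum of holomorphic subbundles `F i`, the following
are equivalent: there is a compatible product decomposition; all partial sums are integrable; all sums
with one summand left out are integrable; all sums of two summands are integrable.
Let now compatible product decompositions `Φ` of `M` and `Φ₁` of `M₁` be given.
(3) The holomorphic maps `X → X₁` which respect the splittings are exactly the maps with a lift which is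
a product of holomorphic maps of the factors.
(4) This lift exists and is unique once its value at one point is prescribed.
(5) There is an isomorphism `X → X₁` of manifolds with splittings if and only if there are biholomorphic
maps of the factors whose product maps the fibres of `π` onto the fibres of `π₁`. -/
theorem result {E : Type*} [NormedAddCommGroup E] [NormedSpace ℂ E] [FiniteDimensional ℂ E]
    {X : Type*} [TopologicalSpace X] [ConnectedSpace X] [ChartedSpace E X] [IsManifold 𝓘(ℂ, E) ω X]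
    {M : Type u} [TopologicalSpace M] [SimplyConnectedSpace M] [ChartedSpace E M]
    [IsManifold 𝓘(ℂ, E) ω M]
    (π : M → X) (hπ : IsCoveringMap π) (hπl : IsLocalDiffeomorph 𝓘(ℂ, E) 𝓘(ℂ, E) ω π)
    {E₁ : Type*} [NormedAddCommGroup E₁] [NormedSpace ℂ E₁] [FiniteDimensional ℂ E₁]
    {X₁ : Type*} [TopologicalSpace X₁] [ConnectedSpace X₁] [ChartedSpace E₁ X₁]
    [IsManifold 𝓘(ℂ, E₁) ω X₁]
    {M₁ : Type u} [TopologicalSpace M₁] [SimplyConnectedSpace M₁] [ChartedSpace E₁ M₁]
    [IsManifold 𝓘(ℂ, E₁) ω M₁]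
    (π₁ : M₁ → X₁) (hπ₁ : IsCoveringMap π₁) (hπl₁ : IsLocalDiffeomorph 𝓘(ℂ, E₁) 𝓘(ℂ, E₁) ω π₁)
    {k : ℕ} (F : Fin k → Dist E X) (F₁ : Fin k → Dist E₁ X₁) :
    (CompactSpace X → T2Space X → ∀ h : Form E X, IsKahler h → IsSplitting F →
      InducesProduct fun i => pull π (F i)) ∧
    (CompactSpace X → T2Space X → ∀ h : Form E X, IsKahler h →
      (∀ i, IsSubbundle (F i)) → (∀ x, DirectSum.IsInternal fun i => F i x) →
      [InducesProduct fun i => pull π (F i),
        ∀ I : Set (Fin k), IsIntegrable fun x => ⨆ i ∈ I, F i x,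
        ∀ j : Fin k, IsIntegrable fun x => ⨆ i ≠ j, F i x,
        ∀ i j : Fin k, IsIntegrable fun x => F i x ⊔ F j x].TFAE) ∧
    ∀ (A : Fin k → Type) [∀ i, NormedAddCommGroup (A i)] [∀ i, NormedSpace ℂ (A i)]
      (Y : Fin k → Type u) [∀ i, TopologicalSpace (Y i)] [∀ i, ChartedSpace (A i) (Y i)]
      (Φ : M → ∀ i, Y i)
      (A₁ : Fin k → Type) [∀ i, NormedAddCommGroup (A₁ i)] [∀ i, NormedSpace ℂ (A₁ i)]
      (Y₁ : Fin k → Type u) [∀ i, TopologicalSpace (Y₁ i)] [∀ i, ChartedSpace (A₁ i) (Y₁ i)]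
      (Φ₁ : M₁ → ∀ i, Y₁ i),
      IsProduct (fun i => pull π (F i)) A Y Φ → IsProduct (fun i => pull π₁ (F₁ i)) A₁ Y₁ Φ₁ →
      (∀ f : X → X₁, Respects F F₁ f ↔ ∃ g, IsProductLift π π₁ A A₁ Φ Φ₁ f g) ∧
      (∀ f : X → X₁, Respects F F₁ f → ∀ m₀ m₁, π₁ m₁ = f (π m₀) →
        ∃! g, IsProductLift π π₁ A A₁ Φ Φ₁ f g ∧ ∀ i, Φ₁ m₁ i = g i (Φ m₀ i)) ∧
      (AreIsomorphic F F₁ ↔ FactorsAreIsomorphic π π₁ A A₁ Φ Φ₁) := by
  refine ⟨?_, ?_, ?_⟩
  · intro _ _ h hh hF
    exact beauville hπ hπl hh F hF.subbundle hF.direct hF.integrable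
  · intro _ _ h hh hsub hdir
    exact tfae hπ hπl hh F hsub hdir
  · intro A _ _ Y _ _ Φ A₁ _ _ Y₁ _ _ Φ₁ h h₁
    exact maps π hπ hπl π₁ hπ₁ hπl₁ A Y Φ A₁ Y₁ Φ₁ h h₁

end Vale.Agent.Results.P278.PairwiseAndMaps
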